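import Vale.Agent.P247.H74.Fin2.Fin

open scoped ContDiff

namespace Vale.Agent.Results.P247.FourTorus

open Vale.Agent.P247.Stmt

/-- Donaldson's hypersymplectic deformation conjecture for the four-torus. -/
theorem result (w : Fin 3 → Form 2) (hw : Hypersymplectic w) (hn : Normalized w) :
    ∃ γ : ℝ → Fin 3 → Form 2, Deformation w γ ∧ Hyperkahler (γ 1) :=
  Vale.Agent.P247.H74.Fin2.Q1T4 w hw hn

end Vale.Agent.Results.P247.FourTorus
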