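import Vale.Agent.P247.H74.RPFIN.Asm

open scoped ContDiff

namespace Vale.Agent.Results.P247.OneTorus

open Vale.Agent.P247.Stmt

/-- Donaldson's hypersymplectic deformation conjecture on `T⁴` when two linearly independent
constant combinations of the forms vanish on one torus. -/
theorem result (w : Fin 3 → Form 2) (hw : Hypersymplectic w) (hn : Normalized w)
    (b c : Fin 3 → ℝ) (hbc : ∀ s t : ℝ, (∀ i, s * b i + t * c i = 0) → s = 0 ∧ t = 0)
    (A : Matrix (Fin 4) (Fin 4) ℤ) (hA : A.det = 1)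
    (i : ℝ × ℝ → R4) (hi : ContDiff ℝ ∞ i)
    (hi₁ : ∀ s t, i (s + 1, t) = fun j => i (s, t) j + A j 2)
    (hi₂ : ∀ s t, i (s, t + 1) = fun j => i (s, t) j + A j 3)
    (himm : ∀ p, Function.Injective (fderiv ℝ i p)) (hinj : Function.Injective i)
    (hb : ∀ p, ∑ j, b j * val (w j) (i p) (fderiv ℝ i p (1, 0)) (fderiv ℝ i p (0, 1)) = 0)
    (hc : ∀ p, ∑ j, c j * val (w j) (i p) (fderiv ℝ i p (1, 0)) (fderiv ℝ i p (0, 1)) = 0) :
    ∃ γ : ℝ → Fin 3 → Form 2, Deformation w γ ∧ Hyperkahler (γ 1) :=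
  Vale.Agent.P247.H74.RPFIN.OneTorus
    w hw hn b c hbc A hA i hi hi₁ hi₂ himm hinj hb hc

end Vale.Agent.Results.P247.OneTorus
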